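import Vale.Agent.P184Z.Stk.Defs

/-!
# Faces, rotation and the form of Kontsevich
-/

noncomputable section

namespace Vale.Agent.P184Z.Stk

open Vale.Agent.P184Z.Par

variable {N : ℕ}

theorem rotL_apply (v : Fin (N + 1) → ℝ) (j : Fin (N + 1)) : rotL N v j = v (j + 1) := rfl

theorem eb_apply {k : ℕ} (i j : Fin k) : eb i j = if j = i then 1 else 0 := by
  simp [Pi.single_apply]

theorem nxt_apply (s : Fin (N + 1) → ℝ) (j : Fin (N + 1)) :
    nxt s j = s (j + 1) + if j = Fin.last N then 1 else 0 := by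
  rw [nxt, Pi.add_apply, rotL_apply, eb_apply]

theorem nxt_last (s : Fin (N + 1) → ℝ) : nxt s (Fin.last N) = s 0 + 1 := by
  rw [nxt_apply, if_pos rfl, Fin.last_add_one]

theorem nxt_castSucc (s : Fin (N + 1) → ℝ) (i : Fin N) : nxt s i.castSucc = s i.succ := by
  rw [nxt_apply, if_neg (Fin.castSucc_lt_last i).ne, add_zero, Fin.coeSucc_eq_succ]

theorem faceL_apply (j : Fin (N + 2)) (v : Fin (N + 1) → ℝ) (i : Fin (N + 2)) :
    faceL j v i = v (fIdx j i) := rfl

theorem face_apply (j : Fin (N + 2)) (s : Fin (N + 1) → ℝ) (i : Fin (N + 2)) :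
    face j s i = s (fIdx j i) + if j = Fin.last (N + 1) ∧ i = j then 1 else 0 := by
  rw [face, Pi.add_apply, faceL_apply, faceC]
  by_cases h : j = Fin.last (N + 1)
  · rw [if_pos h, eb_apply]
    simp only [h, true_and]
  · rw [if_neg h, if_neg fun h' => h h'.1]
    rfl

theorem fIdx_val (j i : Fin (N + 2)) : (fIdx j i : ℕ) =
    if (i : ℕ) ≤ j then (if (i : ℕ) < N + 1 then (i : ℕ) else 0) else i - 1 := by
  unfold fIdx
  split_ifs <;> rfl

theorem succAbove_val {k : ℕ} (j : Fin (k + 1)) (i : Fin k) :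
    (j.succAbove i : ℕ) = if (i : ℕ) < j then (i : ℕ) else i + 1 := by
  unfold Fin.succAbove
  by_cases h : (i : ℕ) < j
  · rw [if_pos (show i.castSucc < j from h), if_pos h]; rfl
  · rw [if_neg (show ¬ i.castSucc < j from h), if_neg h]; rfl

theorem add_one_val {k : ℕ} (i : Fin (k + 1)) :
    ((i + 1 : Fin (k + 1)) : ℕ) = if (i : ℕ) = k then 0 else (i : ℕ) + 1 := by
  rw [Fin.val_add_one]
  by_cases h : i = Fin.last k
  · rw [if_pos h, if_pos (by rw [h]; rfl)]
  · rw [if_neg h, if_neg (show ¬ (i : ℕ) = k from fun h' => h (Fin.ext h'))]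

theorem eq_last_iff {k : ℕ} (i : Fin (k + 1)) : i = Fin.last k ↔ (i : ℕ) = k := Fin.ext_iff

theorem fIdx_succAbove (j : Fin (N + 2)) (i : Fin (N + 1)) : fIdx j (j.succAbove i) = i := by
  apply Fin.ext
  have := i.2
  rw [fIdx_val, succAbove_val]
  split_ifs <;> omega

theorem fIdx_add_one (j : Fin (N + 2)) : fIdx j (j + 1) = fIdx j j := by
  apply Fin.ext
  have := j.2
  rw [fIdx_val, fIdx_val, add_one_val]
  split_ifs <;> omega

theorem fIdx_succAbove_add_one (j : Fin (N + 2)) (i : Fin (N + 1)) :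
    fIdx j (j.succAbove i + 1) = i + 1 := by
  apply Fin.ext
  have := i.2
  have := j.2
  rw [fIdx_val, add_one_val, add_one_val, succAbove_val]
  split_ifs <;> omega

theorem faceL_succAbove (j : Fin (N + 2)) (v : Fin (N + 1) → ℝ) (i : Fin (N + 1)) :
    faceL j v (j.succAbove i) = v i := by
  rw [faceL_apply, fIdx_succAbove]

theorem face_succAbove (j : Fin (N + 2)) (s : Fin (N + 1) → ℝ) (i : Fin (N + 1)) :
    face j s (j.succAbove i) = s i := by
  rw [face_apply, fIdx_succAbove, if_neg fun h => Fin.succAbove_ne j i h.2, add_zero]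

theorem rotL_faceL_self (j : Fin (N + 2)) (v : Fin (N + 1) → ℝ) :
    rotL (N + 1) (faceL j v) j = faceL j v j := by
  rw [rotL_apply, faceL_apply, faceL_apply, fIdx_add_one]

theorem rotL_faceL_succAbove (j : Fin (N + 2)) (v : Fin (N + 1) → ℝ) (i : Fin (N + 1)) :
    rotL (N + 1) (faceL j v) (j.succAbove i) = rotL N v i := by
  rw [rotL_apply, faceL_apply, fIdx_succAbove_add_one, rotL_apply]

theorem nxt_face_self (j : Fin (N + 2)) (s : Fin (N + 1) → ℝ) :
    nxt (face j s) j = face j s j := by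
  rw [nxt_apply, face_apply, face_apply, fIdx_add_one]
  have h1 : j + 1 ≠ j := by
    intro h
    have h2 := congrArg Fin.val h
    rw [add_one_val] at h2
    split_ifs at h2 <;> omega
  simp [h1]

theorem nxt_face_succAbove (j : Fin (N + 2)) (s : Fin (N + 1) → ℝ) (i : Fin (N + 1)) :
    nxt (face j s) (j.succAbove i) = nxt s i := by
  rw [nxt_apply, face_apply, fIdx_succAbove_add_one, nxt_apply, add_assoc]
  congr 1
  have := i.2
  have := j.2
  simp only [Fin.ext_iff, add_one_val, succAbove_val, Fin.val_last]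
  split_ifs <;> first | omega | simp

theorem faceL_og (j : Fin (N + 2)) : faceL j (og (N + 1)) = og (N + 2) := rfl

theorem rotL_og : rotL N (og (N + 1)) = og (N + 1) := rfl

theorem face_add_og (j : Fin (N + 2)) (s : Fin (N + 1) → ℝ) (a : ℝ) :
    face j (s + a • og _) = face j s + a • og _ := by
  rw [face, face, map_add, map_smul, faceL_og, add_right_comm]

theorem nxt_add_og (s : Fin (N + 1) → ℝ) (a : ℝ) : nxt (s + a • og _) = nxt s + a • og _ := by
  rw [nxt, nxt, map_add, map_smul, rotL_og, add_right_comm]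

theorem nxt_nxt_sub (s : Fin (N + 1) → ℝ) (j : Fin (N + 1)) :
    nxt (nxt s) j - nxt s j = nxt s (j + 1) - s (j + 1) := by
  rw [nxt_apply (nxt s), nxt_apply s j]
  ring

theorem sum_add_one (f : Fin (N + 1) → ℝ) : ∑ j, f (j + 1) = ∑ j, f j :=
  Fintype.sum_equiv (Equiv.addRight 1) _ _ fun _ => rfl

theorem sum_gap (s : Fin (N + 1) → ℝ) : ∑ j, (nxt s j - s j) = 1 := by
  simp only [nxt_apply, Finset.sum_sub_distrib, Finset.sum_add_distrib, sum_add_one]
  simp

theorem sm_coord {k : ℕ} (j : Fin k) : Sm fun s : Fin k → ℝ => s j :=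
  (ContinuousLinearMap.proj j : (Fin k → ℝ) →L[ℝ] ℝ).contDiff

theorem D_coord {k : ℕ} (j : Fin k) (v s : Fin k → ℝ) : D v (fun s : Fin k → ℝ => s j) s = v j :=
  D_clm (ContinuousLinearMap.proj j : (Fin k → ℝ) →L[ℝ] ℝ) v s

theorem sm_nxt (j : Fin (N + 1)) : Sm fun s : Fin (N + 1) → ℝ => nxt s j := by
  simp only [nxt_apply]
  exact (sm_coord _).add contDiff_const

theorem D_nxt (j : Fin (N + 1)) (v s : Fin (N + 1) → ℝ) :
    D v (fun s : Fin (N + 1) → ℝ => nxt s j) s = v (j + 1) := by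
  simp only [nxt_apply]
  rw [D_add (sm_coord _) contDiff_const, D_coord, D_const, add_zero]

theorem sm_gap (j : Fin (N + 1)) : Sm fun s : Fin (N + 1) → ℝ => nxt s j - s j :=
  (sm_nxt j).sub (sm_coord j)

theorem isFm_KF : IsFm (KF N) where
  sm v := ContDiff.sum fun j _ => ((sm_gap j).mul contDiff_const).div_const 2
  add v w s := by
    simp only [KF, ← Finset.sum_add_distrib, map_add, Pi.add_apply]
    exact Finset.sum_congr rfl fun j _ => by ring
  smul c v s := by
    simp only [KF, Finset.mul_sum, map_smul, Pi.smul_apply, smul_eq_mul]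
    exact Finset.sum_congr rfl fun j _ => by ring

theorem KF_face (j : Fin (N + 2)) (v s : Fin (N + 1) → ℝ) :
    KF N v s = KF (N + 1) (faceL j v) (face j s) := by
  rw [KF, KF, Fin.sum_univ_succAbove _ j, nxt_face_self, sub_self, zero_mul, zero_div, zero_add]
  simp only [nxt_face_succAbove, face_succAbove, faceL_succAbove, rotL_faceL_succAbove]

theorem KF_rot (v s : Fin (N + 1) → ℝ) : KF N v s = KF N (rotL N v) (nxt s) := by
  rw [KF, KF, ← sum_add_one]
  simp only [nxt_nxt_sub, rotL_apply]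

theorem KF_trans (v s : Fin (N + 1) → ℝ) (a : ℝ) : KF N v (s + a • og _) = KF N v s := by
  simp only [KF, nxt_add_og, Pi.add_apply, add_sub_add_right_eq_sub]

theorem KF_og (s : Fin (N + 1) → ℝ) : KF N (og _) s = 1 := by
  rw [KF, ← sum_gap s]
  refine Finset.sum_congr rfl fun j _ => ?_
  rw [rotL_og]
  ring

theorem D_KF (u v s : Fin (N + 1) → ℝ) :
    D u (KF N v) s = ∑ j, (u (j + 1) - u j) * (v j + v (j + 1)) / 2 := by
  have h := D_sum (E := Fin (N + 1) → ℝ) Finset.univ
    (F := fun j s => (nxt s j - s j) * ((v j + rotL N v j) / 2))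
    (fun j _ => (sm_gap j).mul contDiff_const) u s
  simp only [← mul_div_assoc] at h
  refine h.trans (Finset.sum_congr rfl fun j _ => ?_)
  simp only [mul_div_assoc]
  rw [D_mul_const _ (sm_gap j), D_sub (sm_nxt j) (sm_coord j), D_nxt, D_coord, rotL_apply]

theorem dF_KF (u v s : Fin (N + 1) → ℝ) :
    dF (KF N) u v s = ∑ j, (u (j + 1) * v j - u j * v (j + 1)) := by
  rw [dF, D_KF, D_KF, ← Finset.sum_sub_distrib]
  exact Finset.sum_congr rfl fun j _ => by ring

theorem Slice.gap_nonneg {s : Fin (N + 1) → ℝ} (hs : s ∈ Slice N) (j : Fin (N + 1)) :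
    0 ≤ nxt s j - s j := sub_nonneg.2 (hs.2 j)

theorem Slice.monotone {s : Fin (N + 1) → ℝ} (hs : s ∈ Slice N) : Monotone s := by
  rw [Fin.monotone_iff_le_succ]
  intro i
  rw [← nxt_castSucc s i]
  exact hs.2 _

theorem Slice.mem_Icc {s : Fin (N + 1) → ℝ} (hs : s ∈ Slice N) (j : Fin (N + 1)) :
    0 ≤ s j ∧ s j ≤ 1 := by
  have h1 := Slice.monotone hs (Fin.zero_le j)
  have h2 := Slice.monotone hs (Fin.le_last j)
  have h3 := hs.2 (Fin.last N)
  rw [nxt_last] at h3
  have h4 := hs.1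
  constructor <;> linarith

theorem abs_KF_le {s : Fin (N + 1) → ℝ} (hs : s ∈ Slice N) (v : Fin (N + 1) → ℝ) {C : ℝ}
    (h : ∀ j, |v j| ≤ C) : |KF N v s| ≤ C := by
  refine (Finset.abs_sum_le_sum_abs _ _).trans ?_
  have h1 : ∀ j ∈ Finset.univ, |(nxt s j - s j) * (v j + rotL N v j) / 2| ≤ (nxt s j - s j) * C := by
    intro j _
    rw [mul_div_assoc, abs_mul, abs_of_nonneg (Slice.gap_nonneg hs j)]
    refine mul_le_mul_of_nonneg_left ?_ (Slice.gap_nonneg hs j)
    have h2 := abs_add_le (v j) (rotL N v j)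
    have h3 := h j
    have h4 := h (j + 1)
    rw [abs_div, abs_two, rotL_apply] at *
    linarith
  refine (Finset.sum_le_sum h1).trans (le_of_eq ?_)
  rw [← Finset.sum_mul, sum_gap, one_mul]

section forms

variable {k : ℕ} {θ : Fm k}

theorem IsFm.zero (h : IsFm θ) (s : Fin k → ℝ) : θ 0 s = 0 := by
  have := h.smul 0 0 s
  rwa [zero_smul, zero_mul] at this

theorem IsFm.sum (h : IsFm θ) {ι : Type*} (t : Finset ι) (v : ι → Fin k → ℝ) (s : Fin k → ℝ) :
    θ (∑ i ∈ t, v i) s = ∑ i ∈ t, θ (v i) s := by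
  classical
  induction t using Finset.induction_on with
  | empty => simp [h.zero]
  | insert a t ha ih => rw [Finset.sum_insert ha, Finset.sum_insert ha, h.add, ih]

theorem eq_sum_eb (v : Fin k → ℝ) : v = ∑ i, v i • eb i := by
  funext j
  simp [Finset.sum_apply, Pi.single_apply]

theorem IsFm.expand (h : IsFm θ) (v s : Fin k → ℝ) : θ v s = ∑ i, v i * θ (eb i) s := by
  conv_lhs => rw [eq_sum_eb v, h.sum]
  simp only [h.smul]

theorem dF_anti (θ : Fm k) (u v s : Fin k → ℝ) : dF θ u v s = - dF θ v u s := by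
  rw [dF, dF, neg_sub]

theorem dF_self (θ : Fm k) (u s : Fin k → ℝ) : dF θ u u s = 0 := sub_self _

theorem IsFm.D_add (h : IsFm θ) (u v w s : Fin k → ℝ) :
    D u (θ (v + w)) s = D u (θ v) s + D u (θ w) s := by
  rw [funext (h.add v w), Par.D_add (h.sm v) (h.sm w)]

theorem IsFm.D_smul (h : IsFm θ) (c : ℝ) (u v s : Fin k → ℝ) :
    D u (θ (c • v)) s = c * D u (θ v) s := by
  rw [funext (h.smul c v), D_const_mul c (h.sm v)]

theorem IsFm.dF_add_left (h : IsFm θ) (u u' v s : Fin k → ℝ) :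
    dF θ (u + u') v s = dF θ u v s + dF θ u' v s := by
  rw [dF, dF, dF, D_add_dir, h.D_add]
  ring

theorem IsFm.dF_smul_left (h : IsFm θ) (c : ℝ) (u v s : Fin k → ℝ) :
    dF θ (c • u) v s = c * dF θ u v s := by
  rw [dF, dF, D_smul_dir, h.D_smul, smul_eq_mul]
  ring

theorem IsFm.dF_add_right (h : IsFm θ) (u v v' s : Fin k → ℝ) :
    dF θ u (v + v') s = dF θ u v s + dF θ u v' s := by
  rw [dF_anti, h.dF_add_left, dF_anti θ u v, dF_anti θ u v']
  ring

theorem IsFm.dF_smul_right (h : IsFm θ) (c : ℝ) (u v s : Fin k → ℝ) :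
    dF θ u (c • v) s = c * dF θ u v s := by
  rw [dF_anti, h.dF_smul_left, dF_anti θ u v]
  ring

theorem IsFm.sm_dF (h : IsFm θ) (u v : Fin k → ℝ) : Sm (dF θ u v) :=
  ((h.sm v).D u).sub ((h.sm u).D v)

/-- pull back under affine maps -/
theorem IsFm.pull (h : IsFm θ) {l : ℕ} (L : (Fin l → ℝ) →L[ℝ] (Fin k → ℝ)) (c : Fin k → ℝ) :
    IsFm fun v s => θ (L v) (L s + c) where
  sm v := (h.sm _).comp (L.contDiff.add contDiff_const)
  add v w s := by rw [map_add, h.add]
  smul a v s := by rw [map_smul, h.smul]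

theorem IsFm.dF_pull (h : IsFm θ) {l : ℕ} (L : (Fin l → ℝ) →L[ℝ] (Fin k → ℝ)) (c : Fin k → ℝ)
    (u v s : Fin l → ℝ) :
    dF (fun v s => θ (L v) (L s + c)) u v s = dF θ (L u) (L v) (L s + c) := by
  rw [dF, dF, D_comp_aff L c (h.sm _), D_comp_aff L c (h.sm _)]

/-- a translation invariant form with constant value on the diagonal has a basic derivative -/
theorem IsFm.dF_og (h : IsFm θ) (h1 : ∀ v s (a : ℝ), θ v (s + a • og _) = θ v s)
    (h2 : ∀ s, θ (og _) s = 1) (v s : Fin k → ℝ) : dF θ (og _) v s = 0 := by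
  rw [dF, D_eq_zero_of_inv (h.sm v) (h1 v), funext h2, D_const, sub_self]

end forms

end Vale.Agent.P184Z.Stk
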