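import Vale.Agent.P184Z.Par

/-!
# One-forms on the spaces of jump times: definitions

A loop with `N + 1` vertices has jump times `s 0 ≤ s 1 ≤ ... ≤ s N ≤ s 0 + 1`.
A one-form `θ` is evaluated as `θ v s` on the vector `v` at the point `s`.
-/

noncomputable section

namespace Vale.Agent.P184Z.Stk

open Vale.Agent.P184Z.Par

/-- One-forms on `ℝ^k`: the first argument is the vector, the second one is the point. -/
abbrev Fm (k : ℕ) := (Fin k → ℝ) → (Fin k → ℝ) → ℝ

/-- Smooth one-forms. -/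
structure IsFm {k : ℕ} (θ : Fm k) : Prop where
  sm : ∀ v, Sm (θ v)
  add : ∀ v w s, θ (v + w) s = θ v s + θ w s
  smul : ∀ (c : ℝ) v s, θ (c • v) s = c * θ v s

/-- The basis vectors. -/
abbrev eb {k : ℕ} (i : Fin k) : Fin k → ℝ := Pi.single i 1

/-- The diagonal vector. -/
abbrev og (k : ℕ) : Fin k → ℝ := fun _ => 1

/-- The linear part of the rotation. -/
def rotL (N : ℕ) : (Fin (N + 1) → ℝ) →L[ℝ] (Fin (N + 1) → ℝ) :=
  ContinuousLinearMap.pi fun j => ContinuousLinearMap.proj (j + 1)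

/-- The next jump times; this is also the rotation of the jump times. -/
def nxt {N : ℕ} (s : Fin (N + 1) → ℝ) : Fin (N + 1) → ℝ := rotL N s + eb (Fin.last N)

/-- The index of the jump time which is used at the place `i` on the face `j`. -/
def fIdx {N : ℕ} (j i : Fin (N + 2)) : Fin (N + 1) :=
  if h : (i : ℕ) ≤ j then (if h' : (i : ℕ) < N + 1 then ⟨i, h'⟩ else 0)
  else ⟨i - 1, by omega⟩

/-- The linear part of the face map. -/
def faceL {N : ℕ} (j : Fin (N + 2)) : (Fin (N + 1) → ℝ) →L[ℝ] (Fin (N + 2) → ℝ) :=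
  ContinuousLinearMap.pi fun i => ContinuousLinearMap.proj (fIdx j i)

/-- The constant part of the face map. -/
def faceC {N : ℕ} (j : Fin (N + 2)) : Fin (N + 2) → ℝ :=
  if j = Fin.last (N + 1) then eb j else 0

/-- The face map: the vertex `j` is visited during zero time. -/
def face {N : ℕ} (j : Fin (N + 2)) (s : Fin (N + 1) → ℝ) : Fin (N + 2) → ℝ :=
  faceL j s + faceC j

/-- The ordered jump times with `s 0 = 0`. -/
def Slice (N : ℕ) : Set (Fin (N + 1) → ℝ) := {s | s 0 = 0 ∧ ∀ j, s j ≤ nxt s j}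

/-- The exterior derivative. -/
def dF {k : ℕ} (θ : Fm k) (u v s : Fin k → ℝ) : ℝ := D u (θ v) s - D v (θ u) s

/-- The matrix of the exterior derivative in the coordinates of the slice. -/
def dM {N : ℕ} (θ : Fm (N + 1)) (s : Fin (N + 1) → ℝ) : Matrix (Fin N) (Fin N) ℝ :=
  Matrix.of fun i j => dF θ (eb i.succ) (eb j.succ) s

/-- The form of Kontsevich. -/
def KF (N : ℕ) : Fm (N + 1) := fun v s => ∑ j, (nxt s j - s j) * (v j + rotL N v j) / 2

/-- The transgression functional on one-forms of loops of even length `2 n + 2`. -/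
structure Trans (n : ℕ) (Ψ : Fm (2 * n + 2) → ℝ) : Prop where
  /-- Stokes -/
  stokes : ∀ (θ : Fm (2 * n + 3)) (η : Fin (2 * n + 3) → Fm (2 * n + 2)) (B : ℝ),
    IsFm θ → (∀ j v s, η j v s = θ (faceL j v) (face j s)) → 0 ≤ B →
    (∀ s ∈ Slice (2 * n + 2), (dM θ s).det ≤ B ^ 2) →
    |1 - ∑ j : Fin (2 * n + 3), (-1) ^ (j : ℕ) * Ψ (η j)| ≤ B
  /-- rotation -/
  rot : ∀ η η' : Fm (2 * n + 2), IsFm η' →
    (∀ v s (a : ℝ), η' v (s + a • og _) = η' v s) → (∀ s, η' (og _) s = 1) →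
    (∀ v s, η v s = η' (rotL _ v) (nxt s)) → Ψ η = - Ψ η'
  /-- polynomial bound -/
  bound : ∃ C : ℝ, 0 ≤ C ∧ ∀ (η : Fm (2 * n + 2)) (B : ℝ), IsFm η → 0 ≤ B →
    (∀ s ∈ Slice (2 * n + 1), ∀ i, |η (eb i) s| ≤ B) →
    (∀ s ∈ Slice (2 * n + 1), ∀ i j, |dF η (eb i) (eb j) s| ≤ B) →
    |Ψ η| ≤ C * (1 + B) ^ (n + 1)

end Vale.Agent.P184Z.Stk
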